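import Vale.Agent.P022.H626.Rib
import Vale.Agent.P022.H477.RDef
import Mathlib.NumberTheory.Pell

/-!
# P022: units of a real quadratic field and the fundamental domain `FD` on ideals
-/

open NumberField Module Ideal

namespace Vale.Agent.P022.H626

open Vale.Agent.P022.H724 Vale.Agent.P022.H352 Vale.Agent.P022.H477

variable {K : Type*} [Field K] [NumberField K]

/-- a unit acts on the coordinates of an ideal -/
theorem unit_act (𝔟 : Ideal (𝓞 K)) (φ : (ℤ × ℤ) ≃+ 𝔟) (u : (𝓞 K)ˣ) :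
    ∃ A : (ℤ × ℤ) ≃+ (ℤ × ℤ), ∀ v, (φ (A v) : 𝓞 K) = (u : 𝓞 K) * (φ v : 𝓞 K) := by
  let g : 𝔟 ≃+ 𝔟 :=
    { toFun := fun x => ⟨(u : 𝓞 K) * x, 𝔟.mul_mem_left _ x.2⟩
      invFun := fun x => ⟨((u⁻¹ : (𝓞 K)ˣ) : 𝓞 K) * x, 𝔟.mul_mem_left _ x.2⟩
      left_inv := fun x => Subtype.ext (by
        show ((u⁻¹ : (𝓞 K)ˣ) : 𝓞 K) * ((u : 𝓞 K) * x) = x
        rw [← mul_assoc, Units.inv_mul, one_mul])
      right_inv := fun x => Subtype.ext (by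
        show (u : 𝓞 K) * (((u⁻¹ : (𝓞 K)ˣ) : 𝓞 K) * x) = x
        rw [← mul_assoc, Units.mul_inv, one_mul])
      map_add' := fun x y => Subtype.ext (by
        show (u : 𝓞 K) * ((x : 𝓞 K) + y) = u * x + u * y
        ring) }
  refine ⟨(φ.trans g).trans φ.symm, fun v => ?_⟩
  show (φ (φ.symm (g (φ v))) : 𝓞 K) = _
  rw [AddEquiv.apply_symm_apply]
  rfl

section

variable (B : QB K) {σ₁ σ₂ : K →+* ℝ}

/-- the two embeddings are conjugate -/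
theorem emb_pair (hne : σ₁ ≠ σ₂) :
    σ₁ (B.ω : K) + σ₂ (B.ω : K) = B.q ∧ σ₁ (B.ω : K) * σ₂ (B.ω : K) = -B.p := by
  have q1 := emb_sq B σ₁
  have q2 := emb_sq B σ₂
  have hcon : σ₁ (B.ω : K) - σ₂ (B.ω : K) ≠ 0 := by
    intro h
    exact hne (emb_ext B _ _ (by linarith))
  have h1 : σ₁ (B.ω : K) + σ₂ (B.ω : K) - B.q = 0 := by
    have : (σ₁ (B.ω : K) - σ₂ (B.ω : K)) * (σ₁ (B.ω : K) + σ₂ (B.ω : K) - B.q) = 0 := by
      linear_combination (q1 - q2) / 4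
    exact (mul_eq_zero.mp this).resolve_left hcon
  have h2 : σ₁ (B.ω : K) * σ₁ (B.ω : K) = (B.p : ℝ) + (B.q : ℝ) * σ₁ (B.ω : K) := by
    have h := congrArg (fun x : 𝓞 K => σ₁ (x : K)) B.rel
    simpa using h
  refine ⟨by linarith, ?_⟩
  linear_combination σ₁ (B.ω : K) * h1 - h2

theorem emb_val (σ : K →+* ℝ) (x y : ℤ) :
    σ (((x : 𝓞 K) + (y : 𝓞 K) * B.ω : 𝓞 K) : K) = (x : ℝ) + (y : ℝ) * σ (B.ω : K) := by
  push_cast
  simp only [map_add, map_mul, map_intCast]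

include B in
theorem emb_norm' (hne : σ₁ ≠ σ₂) (x : 𝓞 K) :
    σ₁ (x : K) * σ₂ (x : K) = ((Algebra.norm ℤ x : ℤ) : ℝ) := by
  obtain ⟨a, b, hab⟩ := B.gen x
  obtain ⟨h1, h2⟩ := emb_pair B hne
  rw [hab, B.norm_eq, emb_val, emb_val]
  push_cast
  linear_combination (a * b : ℝ) * h1 + (b : ℝ) ^ 2 * h2

include B in
/-- finitely many integers with bounded embeddings -/
theorem fin_box' (hne : σ₁ ≠ σ₂) (C : ℝ) :
    {x : 𝓞 K | |σ₁ (x : K)| ≤ C ∧ |σ₂ (x : K)| ≤ C}.Finite := by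
  have hd : 0 < |σ₁ (B.ω : K) - σ₂ (B.ω : K)| := by
    rw [abs_pos]
    intro h
    exact hne (emb_ext B _ _ (by linarith))
  set d := |σ₁ (B.ω : K) - σ₂ (B.ω : K)| with hdd
  set M : ℤ := ⌈2 * C / d⌉ with hM
  set L : ℤ := ⌈C + M * |σ₁ (B.ω : K)|⌉ with hL
  have hfin : ((Set.Icc (-L) L ×ˢ Set.Icc (-M) M : Set (ℤ × ℤ))).Finite :=
    (Set.finite_Icc _ _).prod (Set.finite_Icc _ _)
  refine (hfin.image fun v : ℤ × ℤ => (v.1 : 𝓞 K) + (v.2 : 𝓞 K) * B.ω).subset ?_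
  rintro x ⟨hx1, hx2⟩
  obtain ⟨a, b, hab⟩ := B.gen x
  rw [hab, emb_val] at hx1 hx2
  have hb : |(b : ℝ)| ≤ M := by
    have h1 : |(b : ℝ)| * d ≤ 2 * C := by
      rw [hdd, ← abs_mul]
      have : (b : ℝ) * (σ₁ (B.ω : K) - σ₂ (B.ω : K)) =
          ((a : ℝ) + b * σ₁ (B.ω : K)) - ((a : ℝ) + b * σ₂ (B.ω : K)) := by ring
      rw [this]
      calc |_| ≤ |(a : ℝ) + b * σ₁ (B.ω : K)| + |(a : ℝ) + b * σ₂ (B.ω : K)| := abs_sub _ _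
        _ ≤ 2 * C := by linarith
    have h2 : |(b : ℝ)| ≤ 2 * C / d := by rwa [le_div_iff₀ hd]
    exact h2.trans (Int.le_ceil _)
  have ha : |(a : ℝ)| ≤ L := by
    have h1 : |(a : ℝ)| ≤ C + M * |σ₁ (B.ω : K)| := by
      have : (a : ℝ) = ((a : ℝ) + b * σ₁ (B.ω : K)) - b * σ₁ (B.ω : K) := by ring
      rw [this]
      calc |_| ≤ |(a : ℝ) + b * σ₁ (B.ω : K)| + |(b : ℝ) * σ₁ (B.ω : K)| := abs_sub _ _
        _ ≤ C + M * |σ₁ (B.ω : K)| := by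
          rw [abs_mul]
          exact add_le_add hx1 (mul_le_mul_of_nonneg_right hb (abs_nonneg _))
    exact h1.trans (Int.le_ceil _)
  refine ⟨(a, b), ⟨?_, ?_⟩, hab.symm⟩
  · rw [Set.mem_Icc, ← abs_le]
    exact_mod_cast ha
  · rw [Set.mem_Icc, ← abs_le]
    exact_mod_cast hb

include B in
theorem not_sq' : ¬ IsSquare (discr K) := by
  rintro ⟨k, hk⟩
  have h1 : (B.δ - k) * (B.δ + k) = 0 := by
    have h := B.δ_sq
    rw [hk] at h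
    push_cast at h
    linear_combination h
  have h2 : ∀ j : ℤ, B.δ ≠ (j : 𝓞 K) := by
    intro j hj
    unfold QB.δ at hj
    have := B.ind (-B.q - j) 2 (by push_cast; linear_combination hj)
    exact absurd this.2 two_ne_zero
  rcases mul_eq_zero.mp h1 with h | h
  · exact h2 k (sub_eq_zero.mp h)
  · exact h2 (-k) (by push_cast; exact eq_neg_of_add_eq_zero_left h)

end

variable {σ₁ σ₂ : K →+* ℝ}

theorem emb_norm (h2 : finrank ℚ K = 2) (hne : σ₁ ≠ σ₂) (x : 𝓞 K) :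
    σ₁ (x : K) * σ₂ (x : K) = ((Algebra.norm ℤ x : ℤ) : ℝ) := by
  obtain ⟨B⟩ := exists_qb (K := K) h2
  exact emb_norm' B hne x

theorem fin_box (h2 : finrank ℚ K = 2) (hne : σ₁ ≠ σ₂) (C : ℝ) :
    {x : 𝓞 K | |σ₁ (x : K)| ≤ C ∧ |σ₂ (x : K)| ≤ C}.Finite := by
  obtain ⟨B⟩ := exists_qb (K := K) h2
  exact fin_box' B hne C

/-- the discriminant of a quadratic field is not a square -/
theorem not_sq (h2 : finrank ℚ K = 2) : ¬ IsSquare (discr K) := by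
  obtain ⟨B⟩ := exists_qb (K := K) h2
  exact not_sq' B

theorem discr_pos (h2 : finrank ℚ K = 2) (hne : σ₁ ≠ σ₂) : 0 < discr K := by
  obtain ⟨B⟩ := exists_qb (K := K) h2
  have h := emb_sq B σ₁
  have h0 : (0 : ℝ) ≤ discr K := by rw [← h]; positivity
  have h1 : 0 ≤ discr K := by exact_mod_cast h0
  exact lt_of_le_of_ne h1 (discr_ne_zero K).symm

theorem emb_ne (σ : K →+* ℝ) {x : 𝓞 K} (hx : x ≠ 0) : σ (x : K) ≠ 0 := by
  rw [Ne, map_eq_zero]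
  exact fun h => hx (RingOfIntegers.coe_injective (by simpa using h))

/-- a totally positive unit of norm one which is not `1` -/
theorem exists_unit (h2 : finrank ℚ K = 2) (hne : σ₁ ≠ σ₂) :
    ∃ u : (𝓞 K)ˣ, 1 < σ₁ ((u : 𝓞 K) : K) ∧ σ₁ ((u : 𝓞 K) : K) * σ₂ ((u : 𝓞 K) : K) = 1 := by
  obtain ⟨B⟩ := exists_qb (K := K) h2
  have hD := discr_pos h2 hne
  obtain ⟨x, y, hxy, hy⟩ := Pell.exists_of_not_isSquare hD (not_sq h2)
  obtain ⟨hs, hp⟩ := emb_pair B hne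
  have hδ1 : σ₁ (B.δ : K) ^ 2 = (discr K : ℝ) := by
    have := emb_sq B σ₁
    unfold QB.δ
    push_cast
    simp only [map_sub, map_mul, map_ofNat, map_intCast]
    exact this
  have hδ12 : σ₂ (B.δ : K) = -σ₁ (B.δ : K) := by
    unfold QB.δ
    push_cast
    simp only [map_sub, map_mul, map_ofNat, map_intCast]
    linarith
  have hδ0 : σ₁ (B.δ : K) ≠ 0 := by
    intro h
    rw [h] at hδ1
    have : (0 : ℝ) < discr K := by exact_mod_cast hD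
    nlinarith
  -- signs
  obtain ⟨y', hy', hyp⟩ : ∃ y' : ℤ, y' ^ 2 = y ^ 2 ∧ 0 < (y' : ℝ) * σ₁ (B.δ : K) := by
    have hyR : (y : ℝ) ≠ 0 := by exact_mod_cast hy
    rcases lt_or_gt_of_ne (mul_ne_zero hyR hδ0) with h | h
    · exact ⟨-y, by ring, by push_cast; linarith⟩
    · exact ⟨y, rfl, h⟩
  have hx0 : x ≠ 0 := by
    intro h
    rw [h] at hxy
    have : 0 < y ^ 2 := by positivity
    nlinarith
  have hxy' : |x| ^ 2 - discr K * y' ^ 2 = 1 := by rw [sq_abs, hy']; exact hxy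
  have hmul : ((|x| : ℤ) + (y' : 𝓞 K) * B.δ : 𝓞 K) * (((|x| : ℤ) : 𝓞 K) - (y' : 𝓞 K) * B.δ) = 1 := by
    have h := B.δ_sq
    have h3 : ((|x| ^ 2 - discr K * y' ^ 2 : ℤ) : 𝓞 K) = 1 := by rw [hxy']; simp
    push_cast at h3 ⊢
    linear_combination h3 - (y' : 𝓞 K) ^ 2 * h
  let u : (𝓞 K)ˣ := ⟨_, _, hmul, by rw [mul_comm]; exact hmul⟩
  have hu : (u : 𝓞 K) = ((|x| : ℤ) : 𝓞 K) + (y' : 𝓞 K) * B.δ := rfl
  have v1 : σ₁ ((u : 𝓞 K) : K) = ((|x| : ℤ) : ℝ) + (y' : ℝ) * σ₁ (B.δ : K) := by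
    rw [hu]
    simp only [map_add, map_mul, map_intCast]
  have v2 : σ₂ ((u : 𝓞 K) : K) = ((|x| : ℤ) : ℝ) - (y' : ℝ) * σ₁ (B.δ : K) := by
    rw [hu]
    simp only [map_add, map_mul, map_intCast, hδ12]
    ring
  have hx1 : (1 : ℝ) ≤ ((|x| : ℤ) : ℝ) := by
    have : 1 ≤ |x| := Int.one_le_abs hx0
    exact_mod_cast this
  refine ⟨u, ?_, ?_⟩
  · rw [v1]
    linarith
  · rw [v1, v2]
    have h3 : ((|x| : ℤ) : ℝ) ^ 2 - discr K * (y' : ℝ) ^ 2 = 1 := by exact_mod_cast hxy'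
    linear_combination h3 - (y' : ℝ) ^ 2 * hδ1

theorem unit_one (h2 : finrank ℚ K = 2) (hne : σ₁ ≠ σ₂) (u : (𝓞 K)ˣ)
    (h1 : 0 < σ₁ ((u : 𝓞 K) : K)) (h2' : 0 < σ₂ ((u : 𝓞 K) : K)) :
    σ₁ ((u : 𝓞 K) : K) * σ₂ ((u : 𝓞 K) : K) = 1 := by
  have h3 := emb_norm h2 hne (u : 𝓞 K)
  have h4 : IsUnit (Algebra.norm ℤ (u : 𝓞 K)) := u.isUnit.map _
  rw [Int.isUnit_iff] at h4
  rcases h4 with h4 | h4
  · rw [h3, h4]
    norm_num
  · rw [h4] at h3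
    have := mul_pos h1 h2'
    rw [h3] at this
    norm_num at this

/-- **generator of the totally positive units** -/
theorem exists_gen (h2 : finrank ℚ K = 2) (hne : σ₁ ≠ σ₂) :
    ∃ η : (𝓞 K)ˣ, 1 < σ₁ ((η : 𝓞 K) : K) ∧ σ₁ ((η : 𝓞 K) : K) * σ₂ ((η : 𝓞 K) : K) = 1 ∧
      ∀ u : (𝓞 K)ˣ, 0 < σ₁ ((u : 𝓞 K) : K) → 0 < σ₂ ((u : 𝓞 K) : K) → ∃ n : ℤ, u = η ^ n := by
  obtain ⟨η₀, h01, h02⟩ := exists_unit h2 hne
  set C := σ₁ ((η₀ : 𝓞 K) : K) with hC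
  let S : Set (𝓞 K)ˣ := {u | 1 < σ₁ ((u : 𝓞 K) : K) ∧
    σ₁ ((u : 𝓞 K) : K) * σ₂ ((u : 𝓞 K) : K) = 1 ∧ σ₁ ((u : 𝓞 K) : K) ≤ C}
  have hS : S.Finite := by
    have hf := fin_box h2 hne C
    refine (hf.preimage (Units.val_injective.injOn (s := Set.univ.preimage
      (fun u : (𝓞 K)ˣ => (u : 𝓞 K))) |>.mono (Set.subset_univ _))).subset ?_
    rintro u ⟨h1, h3, h4⟩
    refine ⟨by rw [abs_of_pos (by linarith)]; exact h4, ?_⟩
    have h5 : 0 < σ₂ ((u : 𝓞 K) : K) := by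
      by_contra h
      rw [not_lt] at h
      nlinarith
    rw [abs_of_pos h5]
    nlinarith
  obtain ⟨η, hη, hmin⟩ := Set.exists_min_image S (fun u => σ₁ ((u : 𝓞 K) : K)) hS
    ⟨η₀, h01, h02, le_rfl⟩
  refine ⟨η, hη.1, hη.2.1, fun u hu1 hu2 => ?_⟩
  obtain ⟨n, hn1, hn2⟩ := exists_mem_Ico_zpow hu1 hη.1
  have hpow : ∀ m : ℤ, ∀ σ : K →+* ℝ, σ (((η ^ m : (𝓞 K)ˣ) : 𝓞 K) : K) =
      σ ((η : 𝓞 K) : K) ^ m := by
    intro m σ
    have := map_zpow (Units.map ((σ.comp (algebraMap (𝓞 K) K) : 𝓞 K →+* ℝ) : 𝓞 K →* ℝ)) η m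
    have h3 := congrArg (Units.val) this
    rw [Units.val_zpow_eq_zpow_val] at h3
    exact h3
  set w : (𝓞 K)ˣ := u * (η ^ n)⁻¹ with hw
  have hη0 : 0 < σ₁ ((η : 𝓞 K) : K) := by linarith [hη.1]
  have hη2 : 0 < σ₂ ((η : 𝓞 K) : K) := by
    by_contra h
    rw [not_lt] at h
    have := hη.2.1
    nlinarith
  have hwv : ∀ σ : K →+* ℝ, σ ((w : 𝓞 K) : K) = σ ((u : 𝓞 K) : K) * (σ ((η : 𝓞 K) : K) ^ n)⁻¹ := by
    intro σ
    rw [hw, ← zpow_neg, Units.val_mul, ← zpow_neg, ← hpow (-n) σ]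
    simp only [map_mul]
  have hw1 : 1 ≤ σ₁ ((w : 𝓞 K) : K) := by
    rw [hwv, ← div_eq_mul_inv, le_div_iff₀ (zpow_pos hη0 n), one_mul]
    exact hn1
  have hw2 : σ₁ ((w : 𝓞 K) : K) < σ₁ ((η : 𝓞 K) : K) := by
    rw [hwv, ← div_eq_mul_inv, div_lt_iff₀ (zpow_pos hη0 n), ← zpow_one_add₀ hη0.ne', add_comm]
    exact hn2
  have hw3 : 0 < σ₂ ((w : 𝓞 K) : K) := by
    rw [hwv]
    exact mul_pos hu2 (inv_pos.mpr (zpow_pos hη2 n))
  have hw4 := unit_one h2 hne w (by linarith) hw3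
  have hw5 : σ₁ ((w : 𝓞 K) : K) = 1 := by
    by_contra h
    have h3 : w ∈ S := ⟨lt_of_le_of_ne hw1 (Ne.symm h), hw4, hw2.le.trans hη.2.2⟩
    have := hmin w h3
    linarith
  have hw6 : w = 1 := by
    apply Units.ext
    apply RingOfIntegers.coe_injective
    apply σ₁.injective
    rw [hw5]
    simp
  refine ⟨n, ?_⟩
  rw [hw] at hw6
  exact mul_inv_eq_one.mp hw6

end Vale.Agent.P022.H626
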