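import Vale.Agent.P022.H626.Unit
import Vale.Agent.P022.H455.Dom

/-!
# P022: the fundamental domain in the ring of integers of a real quadratic field
-/

open NumberField Module Ideal

namespace Vale.Agent.P022.H626

open Vale.Agent.P022.H724 Vale.Agent.P022.H352 Vale.Agent.P022.H477

variable {K : Type*} [Field K] [NumberField K]

/-- the fundamental domain, in the ring of integers -/
def FDK (σ₁ σ₂ : K →+* ℝ) (u : ℝ) (s : ℤ) : Set (𝓞 K) :=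
  {α | 0 < s * Algebra.norm ℤ α ∧ |σ₂ (α : K)| ≤ |σ₁ (α : K)| ∧
    |σ₁ (α : K)| < u ^ 2 * |σ₂ (α : K)|}

variable {σ₁ σ₂ : K →+* ℝ} {u : ℝ}

/-- `FD` in the coordinates of an ideal is `FDK` -/
theorem mem_FD_iff {a b c : ℤ} {D : ℕ} {𝔟 : Ideal (𝓞 K)} (h𝔟 : 𝔟 ≠ ⊥)
    {φ : (ℤ × ℤ) ≃+ 𝔟} {ρ : ℝ} (hρ : 0 < ρ)
    (h : ∀ v, σ₁ (φ v : 𝓞 K) = ρ * e1 a b D v ∧ σ₂ (φ v : 𝓞 K) = ρ * e2 a b D v ∧
        Algebra.norm ℤ (φ v : 𝓞 K) = Qf a b c v * absNorm 𝔟) (s : ℤ) (v : ℤ × ℤ) :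
    v ∈ FD a b c D u s ↔ (φ v : 𝓞 K) ∈ FDK σ₁ σ₂ u s := by
  obtain ⟨h1, h2, h3⟩ := h v
  have hN : (0 : ℤ) < absNorm 𝔟 := by
    exact_mod_cast Nat.pos_of_ne_zero (fun h => h𝔟 (absNorm_eq_zero_iff.mp h))
  unfold FD FDK
  rw [Set.mem_ofPred_eq, Set.mem_ofPred_eq, h1, h2, h3, abs_mul, abs_mul, abs_of_pos hρ]
  refine and_congr ?_ (and_congr ?_ ?_)
  · rw [← mul_assoc]
    exact (mul_pos_iff_of_pos_right hN).symm
  · exact (mul_le_mul_iff_right₀ hρ).symm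
  · rw [show u ^ 2 * (ρ * |e2 a b D v|) = ρ * (u ^ 2 * |e2 a b D v|) by ring]
    exact (mul_lt_mul_iff_right₀ hρ).symm

theorem mem_FDK_one (h2 : finrank ℚ K = 2) (hne : σ₁ ≠ σ₂) (α : 𝓞 K) :
    α ∈ FDK σ₁ σ₂ u 1 ↔ |σ₂ (α : K)| ≤ |σ₁ (α : K)| ∧ |σ₁ (α : K)| < u ^ 2 * |σ₂ (α : K)| ∧
      0 < σ₁ (α : K) * σ₂ (α : K) := by
  rw [emb_norm h2 hne]
  unfold FDK
  rw [Set.mem_ofPred_eq, one_mul, Int.cast_pos]
  tauto

/-- finitely many elements of the domain with bounded norm -/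
theorem fin_FDK (h2 : finrank ℚ K = 2) (hne : σ₁ ≠ σ₂) (u : ℝ) (s : ℤ) (n : ℕ) :
    {α : 𝓞 K | α ∈ FDK σ₁ σ₂ u s ∧ absNorm (span {α}) ≤ n}.Finite := by
  refine (fin_box h2 hne (1 + (1 + u ^ 2) * n)).subset ?_
  rintro α ⟨⟨-, h3, h4⟩, h5⟩
  have h6 : |σ₁ (α : K)| * |σ₂ (α : K)| ≤ n := by
    rw [← abs_mul, emb_norm h2 hne, ← Int.cast_abs]
    rw [absNorm_span_singleton] at h5
    have : |Algebra.norm ℤ α| ≤ (n : ℤ) := by
      rw [Int.abs_eq_natAbs]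
      exact_mod_cast h5
    exact_mod_cast this
  have p1 := abs_nonneg (σ₁ (α : K))
  have p2 := abs_nonneg (σ₂ (α : K))
  set x := |σ₁ (α : K)|
  set y := |σ₂ (α : K)|
  have hn : (0 : ℝ) ≤ n := Nat.cast_nonneg n
  have hx : x ^ 2 ≤ u ^ 2 * n := by nlinarith [sq_nonneg u, mul_nonneg (sq_nonneg u) p2]
  have hy : y ^ 2 ≤ n := by nlinarith
  have hu := mul_nonneg (sq_nonneg u) hn
  constructor
  · nlinarith [sq_nonneg (x - 1)]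
  · nlinarith [sq_nonneg (y - 1)]

theorem fin_FDK' (h2 : finrank ℚ K = 2) (hne : σ₁ ≠ σ₂) (u : ℝ) (s : ℤ) (n : ℕ) :
    {α : 𝓞 K | α ∈ FDK σ₁ σ₂ u s ∧ absNorm (span {α}) = n}.Finite :=
  (fin_FDK h2 hne u s n).subset fun _ h => ⟨h.1, h.2.le⟩

/-- the domain is stable under nonzero rational integers -/
theorem mul_FDK (h2 : finrank ℚ K = 2) (hne : σ₁ ≠ σ₂) {d : ℤ} (hd : d ≠ 0) (s : ℤ) (α : 𝓞 K) :
    (d : 𝓞 K) * α ∈ FDK σ₁ σ₂ u s ↔ α ∈ FDK σ₁ σ₂ u s := by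
  have hdR : 0 < |(d : ℝ)| := abs_pos.mpr (by exact_mod_cast hd)
  have hd2 : (0 : ℤ) < d ^ 2 := by positivity
  have hn : Algebra.norm ℤ ((d : 𝓞 K) * α) = d ^ 2 * Algebra.norm ℤ α := by
    have h3 := emb_norm h2 hne ((d : 𝓞 K) * α)
    have h4 := emb_norm h2 hne α
    have h5 : ((Algebra.norm ℤ ((d : 𝓞 K) * α) : ℤ) : ℝ) = ((d ^ 2 * Algebra.norm ℤ α : ℤ) : ℝ) := by
      rw [← h3]
      push_cast
      rw [← h4]
      simp only [map_mul, map_intCast]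
      ring
    exact_mod_cast h5
  unfold FDK
  rw [Set.mem_ofPred_eq, Set.mem_ofPred_eq, hn]
  have hv : ∀ σ : K →+* ℝ, |σ (((d : 𝓞 K) * α : 𝓞 K) : K)| = |(d : ℝ)| * |σ (α : K)| := by
    intro σ
    rw [← abs_mul]
    push_cast
    simp only [map_mul, map_intCast]
  rw [hv, hv]
  refine and_congr ?_ (and_congr ?_ ?_)
  · rw [show s * (d ^ 2 * Algebra.norm ℤ α) = d ^ 2 * (s * Algebra.norm ℤ α) by ring]
    exact mul_pos_iff_of_pos_left hd2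
  · exact mul_le_mul_iff_right₀ hdR
  · rw [show u ^ 2 * (|(d : ℝ)| * |σ₂ (α : K)|) = |(d : ℝ)| * (u ^ 2 * |σ₂ (α : K)|) by ring]
    exact mul_lt_mul_iff_right₀ hdR

theorem units_val_zpow (σ : K →+* ℝ) (v : (𝓞 K)ˣ) (m : ℤ) :
    σ (((v ^ m : (𝓞 K)ˣ) : 𝓞 K) : K) = σ ((v : 𝓞 K) : K) ^ m := by
  have := map_zpow (Units.map ((σ.comp (algebraMap (𝓞 K) K) : 𝓞 K →+* ℝ) : 𝓞 K →* ℝ)) v m
  have h3 := congrArg (Units.val) this
  rw [Units.val_zpow_eq_zpow_val] at h3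
  exact h3

/-- every orbit of the unit `ε` meets the domain exactly once -/
theorem orbit (ε : (𝓞 K)ˣ) (hu : 1 < σ₁ ((ε : 𝓞 K) : K))
    (h12 : σ₁ ((ε : 𝓞 K) : K) * σ₂ ((ε : 𝓞 K) : K) = 1) {α : 𝓞 K} (hα : α ≠ 0) :
    ∃! n : ℤ, |σ₂ ((((ε ^ n : (𝓞 K)ˣ) : 𝓞 K) * α : 𝓞 K) : K)| ≤
        |σ₁ ((((ε ^ n : (𝓞 K)ˣ) : 𝓞 K) * α : 𝓞 K) : K)| ∧
      |σ₁ ((((ε ^ n : (𝓞 K)ˣ) : 𝓞 K) * α : 𝓞 K) : K)| < σ₁ ((ε : 𝓞 K) : K) ^ 2 *
        |σ₂ ((((ε ^ n : (𝓞 K)ˣ) : 𝓞 K) * α : 𝓞 K) : K)| := by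
  have h0 : (0 : ℝ) < σ₁ ((ε : 𝓞 K) : K) := by linarith
  have hinv : σ₂ ((ε : 𝓞 K) : K) = (σ₁ ((ε : 𝓞 K) : K))⁻¹ := by
    field_simp
    linarith
  let A : Equiv.Perm (𝓞 K) := Units.mulLeft ε
  have hA : ∀ n : ℤ, ∀ x, (A ^ n) x = ((ε ^ n : (𝓞 K)ˣ) : 𝓞 K) * x := by
    intro n x
    have h1 : A ^ n = Units.mulLeft (ε ^ n) := by
      have := map_zpow (MulAction.toPermHom (𝓞 K)ˣ (𝓞 K)) ε n
      exact this.symm
    rw [h1]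
    rfl
  have := H455.dom (A := A) (x1 := fun x : 𝓞 K => σ₁ (x : K)) (x2 := fun x : 𝓞 K => σ₂ (x : K))
    hu (fun x => by
      show σ₁ (((ε : 𝓞 K) * x : 𝓞 K) : K) = _
      push_cast
      exact map_mul _ _ _)
    (fun x => by
      show σ₂ (((ε : 𝓞 K) * x : 𝓞 K) : K) = _
      rw [← hinv]
      push_cast
      exact map_mul _ _ _)
    (v := α) (emb_ne σ₁ hα) (emb_ne σ₂ hα)
  simpa only [hA] using this

/-- units of norm one -/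
def UP (K : Type*) [Field K] [NumberField K] : Subgroup (𝓞 K)ˣ where
  carrier := {v | 0 < Algebra.norm ℤ (v : 𝓞 K)}
  mul_mem' {v w} hv hw := by
    show 0 < Algebra.norm ℤ ((v * w : (𝓞 K)ˣ) : 𝓞 K)
    rw [Units.val_mul, map_mul]
    exact mul_pos hv hw
  one_mem' := by
    show 0 < Algebra.norm ℤ ((1 : (𝓞 K)ˣ) : 𝓞 K)
    rw [Units.val_one, map_one]
    exact one_pos
  inv_mem' {v} hv := by
    show 0 < Algebra.norm ℤ ((v⁻¹ : (𝓞 K)ˣ) : 𝓞 K)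
    have h1 : Algebra.norm ℤ ((v⁻¹ : (𝓞 K)ˣ) : 𝓞 K) * Algebra.norm ℤ (v : 𝓞 K) = 1 := by
      rw [← map_mul, Units.inv_mul, map_one]
    have h2 : 0 < Algebra.norm ℤ (v : 𝓞 K) := hv
    by_contra h
    rw [not_lt] at h
    nlinarith

/-- **the number of generators in the domain of an ideal with a generator of positive norm is a
constant** -/
theorem card_gen (h2 : finrank ℚ K = 2) (hne : σ₁ ≠ σ₂) (ε : (𝓞 K)ˣ)
    (hu : 1 < σ₁ ((ε : 𝓞 K) : K)) (h12 : σ₁ ((ε : 𝓞 K) : K) * σ₂ ((ε : 𝓞 K) : K) = 1) :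
    ∃ w : ℕ, 0 < w ∧ ∀ α₀ : 𝓞 K, 0 < Algebra.norm ℤ α₀ →
      {α : 𝓞 K | α ∈ FDK σ₁ σ₂ (σ₁ ((ε : 𝓞 K) : K)) 1 ∧ span {α} = span {α₀}}.Finite ∧
      {α : 𝓞 K | α ∈ FDK σ₁ σ₂ (σ₁ ((ε : 𝓞 K) : K)) 1 ∧ span {α} = span {α₀}}.ncard = w := by
  classical
  have hεn : Algebra.norm ℤ (ε : 𝓞 K) = 1 := by
    have := emb_norm h2 hne (ε : 𝓞 K)
    rw [h12] at this
    exact_mod_cast this.symm
  let e : UP K := ⟨ε, by show 0 < Algebra.norm ℤ (ε : 𝓞 K); rw [hεn]; exact one_pos⟩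
  have hev : ∀ n : ℤ, ((e ^ n : UP K) : (𝓞 K)ˣ) = ε ^ n := fun n => by
    rw [Subgroup.coe_zpow]
  set S : 𝓞 K → Set (𝓞 K) := fun α₀ =>
    {α : 𝓞 K | α ∈ FDK σ₁ σ₂ (σ₁ ((ε : 𝓞 K) : K)) 1 ∧ span {α} = span {α₀}} with hS
  have hfin : ∀ α₀, (S α₀).Finite := fun α₀ =>
    (fin_FDK h2 hne _ 1 (absNorm (span {α₀}))).subset fun α hα => ⟨hα.1, by rw [hα.2]⟩
  have hcard : ∀ α₀ : 𝓞 K, 0 < Algebra.norm ℤ α₀ →
      (S α₀).ncard = Nat.card (UP K ⧸ Subgroup.zpowers e) := by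
    intro α₀ hα₀
    have hα0 : α₀ ≠ 0 := by
      intro h
      rw [h, Algebra.norm_zero] at hα₀
      exact lt_irrefl _ hα₀
    have hex : ∀ α : S α₀, ∃ v : UP K, (α : 𝓞 K) = ((v : (𝓞 K)ˣ) : 𝓞 K) * α₀ := by
      rintro ⟨α, hα⟩
      obtain ⟨v, hv⟩ := (Ideal.span_singleton_eq_span_singleton.mp hα.2).symm
      have hn : 0 < Algebra.norm ℤ α := by simpa using hα.1.1
      refine ⟨⟨v, ?_⟩, ?_⟩
      · show 0 < Algebra.norm ℤ (v : 𝓞 K)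
        rw [← hv, map_mul] at hn
        exact (mul_pos_iff_of_pos_left hα₀).mp hn
      · show α = (v : 𝓞 K) * α₀
        rw [← hv, mul_comm]
    choose v hv using hex
    let f : S α₀ → UP K ⧸ Subgroup.zpowers e := fun α => QuotientGroup.mk (v α)
    have hbij : Function.Bijective f := by
      constructor
      · intro α β hαβ
        have h1 : (v α)⁻¹ * v β ∈ Subgroup.zpowers e := QuotientGroup.eq.mp hαβ
        obtain ⟨n, hn⟩ := Subgroup.mem_zpowers_iff.mp h1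
        have h3 : v β = e ^ n * v α := by
          rw [hn, mul_comm, mul_inv_cancel_left]
        have h4 : (β : 𝓞 K) = ((ε ^ n : (𝓞 K)ˣ) : 𝓞 K) * (α : 𝓞 K) := by
          rw [hv α, hv β, h3, Subgroup.coe_mul, hev, Units.val_mul, mul_assoc]
        have hα1 : (α : 𝓞 K) ≠ 0 := by
          rw [hv α]
          exact mul_ne_zero (Units.ne_zero _) hα0
        have h5 := (orbit ε hu h12 hα1).unique (y₁ := n) (y₂ := 0)
          (by rw [← h4]; exact ⟨β.2.1.2.1, β.2.1.2.2⟩)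
          (by rw [zpow_zero, Units.val_one, one_mul]; exact ⟨α.2.1.2.1, α.2.1.2.2⟩)
        apply Subtype.ext
        rw [h4, h5, zpow_zero, Units.val_one, one_mul]
      · intro q
        obtain ⟨w, rfl⟩ := QuotientGroup.mk_surjective q
        have hw0 : ((w : (𝓞 K)ˣ) : 𝓞 K) * α₀ ≠ 0 := mul_ne_zero (Units.ne_zero _) hα0
        obtain ⟨n, hn, -⟩ := orbit ε hu h12 hw0
        have hw1 : 0 < Algebra.norm ℤ ((w : (𝓞 K)ˣ) : 𝓞 K) := w.2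
        have hmem : ((ε ^ n : (𝓞 K)ˣ) : 𝓞 K) * (((w : (𝓞 K)ˣ) : 𝓞 K) * α₀) ∈ S α₀ := by
          refine ⟨⟨?_, hn.1, hn.2⟩, ?_⟩
          · rw [one_mul, map_mul, map_mul]
            have h6 : 0 < Algebra.norm ℤ ((ε ^ n : (𝓞 K)ˣ) : 𝓞 K) := by
              have : (e ^ n : UP K).1 = ε ^ n := hev n
              rw [← this]
              exact (e ^ n : UP K).2
            exact mul_pos h6 (mul_pos hw1 hα₀)
          · rw [← mul_assoc, ← Units.val_mul]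
            exact Ideal.span_singleton_eq_span_singleton.mpr
              ⟨(ε ^ n * (w : (𝓞 K)ˣ))⁻¹, by rw [mul_comm, ← mul_assoc, Units.inv_mul, one_mul]⟩
        refine ⟨⟨_, hmem⟩, ?_⟩
        have h7 := hv ⟨_, hmem⟩
        have h8 : ((v ⟨_, hmem⟩ : UP K) : (𝓞 K)ˣ) = ε ^ n * (w : (𝓞 K)ˣ) := by
          apply Units.ext
          apply mul_right_cancel₀ hα0
          rw [← h7, Units.val_mul, mul_assoc]
        show QuotientGroup.mk (v ⟨_, hmem⟩) = QuotientGroup.mk w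
        apply Eq.symm
        rw [QuotientGroup.eq]
        refine Subgroup.mem_zpowers_iff.mpr ⟨n, ?_⟩
        apply Subtype.ext
        rw [hev, Subgroup.coe_mul, h8, Subgroup.coe_inv]
        rw [mul_comm (ε ^ n), inv_mul_cancel_left]
    rw [← Nat.card_coe_set_eq]
    exact Nat.card_congr (Equiv.ofBijective f hbij)
  have h1 : 0 < Algebra.norm ℤ (1 : 𝓞 K) := by rw [map_one]; exact one_pos
  refine ⟨Nat.card (UP K ⧸ Subgroup.zpowers e), ?_, fun α₀ hα₀ => ⟨hfin α₀, hcard α₀ hα₀⟩⟩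
  rw [← hcard 1 h1, Set.ncard_pos (hfin 1)]
  obtain ⟨n, hn, -⟩ := orbit ε hu h12 (one_ne_zero (α := 𝓞 K))
  refine ⟨((ε ^ n : (𝓞 K)ˣ) : 𝓞 K) * 1, ⟨?_, hn.1, hn.2⟩, ?_⟩
  · rw [one_mul, mul_one]
    have : (e ^ n : UP K).1 = ε ^ n := hev n
    rw [← this]
    exact (e ^ n : UP K).2
  · rw [mul_one]
    exact Ideal.span_singleton_eq_span_singleton.mpr
      ⟨(ε ^ n)⁻¹, Units.mul_inv _⟩

end Vale.Agent.P022.H626
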