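import Vale.Agent.P022.H724.IB
import Vale.Agent.P022.H352.Ker

/-!
# P022 [RIB]: an ideal of a real quadratic ring of integers has an oriented basis

`a x² + b x y + c y²` with `a > 0` and `b² - 4 a c = D`; both real embeddings have the same
positive factor `ρ`.
-/

open NumberField Module Ideal

namespace Vale.Agent.P022.H626

open Vale.Agent.P022.H724 Vale.Agent.P022.H352

variable {K : Type*} [Field K] [NumberField K]

/-- Hermite normal form of an ideal. -/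
theorem hnf (B : QB K) (I : Ideal (𝓞 K)) (hI : I ≠ ⊥) : ∃ t s r : ℤ, 0 < t ∧ 0 < r ∧
    ((t : 𝓞 K) ∈ I) ∧ ((s : 𝓞 K) + (r : 𝓞 K) * B.ω ∈ I) ∧
    (∀ y ∈ I, ∃ u v : ℤ, y = (u : 𝓞 K) * (t : 𝓞 K) +
      (v : 𝓞 K) * ((s : 𝓞 K) + (r : 𝓞 K) * B.ω)) ∧
    t * r = (absNorm I : ℤ) := by
  obtain ⟨s0, r0, s1, r1, m0, m1, hgen, hdet⟩ := B.exists_basis I hI
  have hN : 0 < absNorm I := Nat.pos_of_ne_zero (fun h => hI (absNorm_eq_zero_iff.mp h))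
  have hNz : (absNorm I : ℤ) ≠ 0 := by exact_mod_cast hN.ne'
  have hE : s0 * r1 - s1 * r0 ≠ 0 := by
    intro h
    rw [h] at hdet
    exact hNz (pow_eq_zero_iff two_ne_zero |>.mp (by rw [← hdet]; ring))
  obtain ⟨a0, ha0⟩ := Int.gcd_dvd_left r0 r1
  obtain ⟨a1, ha1⟩ := Int.gcd_dvd_right r0 r1
  have hbez := Int.gcd_eq_gcd_ab r0 r1
  set g : ℤ := (Int.gcd r0 r1 : ℤ) with hg
  set x := Int.gcdA r0 r1
  set y := Int.gcdB r0 r1
  have hg0 : g ≠ 0 := by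
    intro h
    apply hE
    rw [ha0, ha1, h]
    ring
  have hgpos : 0 < g := lt_of_le_of_ne (by rw [hg]; positivity) (Ne.symm hg0)
  have hxy : x * a0 + y * a1 = 1 := by
    apply mul_left_cancel₀ hg0
    linear_combination -hbez - x * ha0 - y * ha1
  set t0 : ℤ := a1 * s0 - a0 * s1 with ht0
  have hgt : g * t0 = s0 * r1 - s1 * r0 := by
    rw [ht0]
    linear_combination -s0 * ha1 + s1 * ha0
  have ht00 : t0 ≠ 0 := by
    intro h
    apply hE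
    rw [← hgt, h, mul_zero]
  have e0 : (t0 : 𝓞 K) = (a1 : 𝓞 K) * ((s0 : 𝓞 K) + (r0 : 𝓞 K) * B.ω) -
      (a0 : 𝓞 K) * ((s1 : 𝓞 K) + (r1 : 𝓞 K) * B.ω) := by
    have h1 : (a1 : 𝓞 K) * r0 = (a0 : 𝓞 K) * r1 := by
      have : a1 * r0 = a0 * r1 := by linear_combination a1 * ha0 - a0 * ha1
      exact_mod_cast this
    rw [ht0]
    push_cast
    linear_combination -B.ω * h1
  have e1 : ((x * s0 + y * s1 : ℤ) : 𝓞 K) + (g : 𝓞 K) * B.ω =
      (x : 𝓞 K) * ((s0 : 𝓞 K) + (r0 : 𝓞 K) * B.ω) +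
      (y : 𝓞 K) * ((s1 : 𝓞 K) + (r1 : 𝓞 K) * B.ω) := by
    have h1 : (g : 𝓞 K) = (r0 : 𝓞 K) * x + (r1 : 𝓞 K) * y := by exact_mod_cast hbez
    rw [h1]
    push_cast
    ring
  have hxyO : (x : 𝓞 K) * a0 + (y : 𝓞 K) * a1 = 1 := by exact_mod_cast hxy
  have mt : (t0 : 𝓞 K) ∈ I := by
    rw [e0]
    exact I.sub_mem (I.mul_mem_left _ m0) (I.mul_mem_left _ m1)
  have ms : ((x * s0 + y * s1 : ℤ) : 𝓞 K) + (g : 𝓞 K) * B.ω ∈ I := by
    rw [e1]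
    exact I.add_mem (I.mul_mem_left _ m0) (I.mul_mem_left _ m1)
  have hg' : ∀ z ∈ I, ∃ u v : ℤ, z = (u : 𝓞 K) * (t0 : 𝓞 K) +
      (v : 𝓞 K) * (((x * s0 + y * s1 : ℤ) : 𝓞 K) + (g : 𝓞 K) * B.ω) := by
    intro z hz
    obtain ⟨u, v, huv⟩ := hgen z hz
    refine ⟨u * y - v * x, u * a0 + v * a1, ?_⟩
    rw [e0, e1, huv]
    set b0 : 𝓞 K := (s0 : 𝓞 K) + (r0 : 𝓞 K) * B.ω
    set b1 : 𝓞 K := (s1 : 𝓞 K) + (r1 : 𝓞 K) * B.ω
    push_cast
    linear_combination (-(u : 𝓞 K) * b0 - (v : 𝓞 K) * b1) * hxyO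
  have habs : |g * t0| = (absNorm I : ℤ) := by
    have h1 : |g * t0| ^ 2 = (absNorm I : ℤ) ^ 2 := by rw [sq_abs, hgt, hdet]
    exact (sq_eq_sq₀ (abs_nonneg _) (by positivity)).mp h1
  rcases lt_or_gt_of_ne ht00 with h | h
  · refine ⟨-t0, x * s0 + y * s1, g, by linarith, hgpos, ?_, ms, ?_, ?_⟩
    · push_cast
      exact I.neg_mem mt
    · intro z hz
      obtain ⟨u, v, huv⟩ := hg' z hz
      refine ⟨-u, v, ?_⟩
      rw [huv]
      push_cast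
      ring
    · rw [← habs, abs_of_neg (mul_neg_of_pos_of_neg hgpos h)]
      ring
  · refine ⟨t0, x * s0 + y * s1, g, h, hgpos, mt, ms, hg', ?_⟩
    rw [← habs, abs_of_pos (mul_pos hgpos h)]
    ring

/-- two real embeddings which agree at `ω` are equal -/
theorem emb_ext (B : QB K) (σ₁ σ₂ : K →+* ℝ) (h : σ₁ (B.ω : K) = σ₂ (B.ω : K)) : σ₁ = σ₂ := by
  apply IsLocalization.ringHom_ext (nonZeroDivisors (𝓞 K))
  ext x
  obtain ⟨a, b, hab⟩ := B.gen x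
  rw [hab]
  show σ₁ (((a : 𝓞 K) + (b : 𝓞 K) * B.ω : 𝓞 K) : K) = σ₂ (((a : 𝓞 K) + (b : 𝓞 K) * B.ω : 𝓞 K) : K)
  push_cast
  simp only [map_add, map_mul, map_intCast, h]

theorem emb_sq (B : QB K) (σ : K →+* ℝ) :
    (2 * σ (B.ω : K) - B.q) ^ 2 = (discr K : ℝ) := by
  have h1 : σ (B.ω : K) * σ (B.ω : K) = (B.p : ℝ) + (B.q : ℝ) * σ (B.ω : K) := by
    have h := congrArg (fun x : 𝓞 K => σ (x : K)) B.rel
    simpa using h
  rw [B.discr_eq]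
  push_cast
  linear_combination 4 * h1

/-- **[RIB]** -/
theorem rib (h2 : finrank ℚ K = 2) (D : ℕ) (hd : discr K = (D : ℤ)) (σ₁ σ₂ : K →+* ℝ)
    (hne : σ₁ ≠ σ₂) (𝔟 : Ideal (𝓞 K)) (h𝔟 : 𝔟 ≠ ⊥) :
    ∃ (a b c : ℤ) (φ : (ℤ × ℤ) ≃+ 𝔟) (ρ : ℝ), 0 < a ∧ b ^ 2 - 4 * a * c = (D : ℤ) ∧ 0 < ρ ∧
      ρ ^ 2 * a = (absNorm 𝔟 : ℝ) ∧
      ∀ v, σ₁ (φ v : 𝓞 K) = ρ * e1 a b D v ∧ σ₂ (φ v : 𝓞 K) = ρ * e2 a b D v ∧
        Algebra.norm ℤ (φ v : 𝓞 K) = Qf a b c v * absNorm 𝔟 := by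
  obtain ⟨B⟩ := exists_qb (K := K) h2
  obtain ⟨t, s, r, ht, hr, mt, ms, hgen, hN⟩ := hnf B 𝔟 h𝔟
  have hD0 : discr K ≠ 0 := discr_ne_zero K
  have hNp : 0 < absNorm 𝔟 := Nat.pos_of_ne_zero (fun h => h𝔟 (absNorm_eq_zero_iff.mp h))
  set n : ℕ := absNorm 𝔟 with hn
  have hnz : (n : ℤ) ≠ 0 := by exact_mod_cast hNp.ne'
  have hdR : (discr K : ℝ) = (D : ℝ) := by rw [hd]; simp
  -- the sign
  obtain ⟨ε, hε, h1, h2'⟩ : ∃ ε : ℤ, ε ^ 2 = 1 ∧
      2 * σ₁ (B.ω : K) - B.q = ε * Real.sqrt D ∧ 2 * σ₂ (B.ω : K) - B.q = -(ε * Real.sqrt D) := by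
    have q1 := emb_sq B σ₁
    have q2 := emb_sq B σ₂
    rw [hdR] at q1 q2
    have hs : Real.sqrt D ^ 2 = D := Real.sq_sqrt (Nat.cast_nonneg D)
    have c1 : 2 * σ₁ (B.ω : K) - B.q = Real.sqrt D ∨ 2 * σ₁ (B.ω : K) - B.q = -Real.sqrt D :=
      sq_eq_sq_iff_eq_or_eq_neg.mp (by rw [q1, hs])
    have c2 : 2 * σ₂ (B.ω : K) - B.q = Real.sqrt D ∨ 2 * σ₂ (B.ω : K) - B.q = -Real.sqrt D :=
      sq_eq_sq_iff_eq_or_eq_neg.mp (by rw [q2, hs])
    have hcon : 2 * σ₁ (B.ω : K) - B.q ≠ 2 * σ₂ (B.ω : K) - B.q := by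
      intro h
      apply hne
      apply emb_ext B
      linarith
    rcases c1 with c1 | c1 <;> rcases c2 with c2 | c2
    · exact absurd (c1.trans c2.symm) hcon
    · exact ⟨1, by norm_num, by rw [c1]; push_cast; ring, by rw [c2]; push_cast; ring⟩
    · exact ⟨-1, by norm_num, by rw [c1]; push_cast; ring, by rw [c2]; push_cast; ring⟩
    · exact absurd (c1.trans c2.symm) hcon
  -- the form
  have dvd : ∀ s r : ℤ, (s : 𝓞 K) + (r : 𝓞 K) * B.ω ∈ 𝔟 →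
      (n : ℤ) ∣ s ^ 2 + B.q * s * r - B.p * r ^ 2 := by
    intro s r h
    have := Ideal.absNorm_dvd_norm_of_mem h
    rwa [B.norm_eq] at this
  obtain ⟨a, ha⟩ := dvd t 0 (by simpa using mt)
  obtain ⟨c, hc⟩ := dvd s r ms
  obtain ⟨e, he⟩ := dvd (t + s) r (by
    have := 𝔟.add_mem mt ms
    have e : ((t + s : ℤ) : 𝓞 K) + (r : 𝓞 K) * B.ω =
        (t : 𝓞 K) + ((s : 𝓞 K) + (r : 𝓞 K) * B.ω) := by
      push_cast
      ring
    rw [e]
    exact this)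
  set b0 : ℤ := e - a - c with hb0
  have hT : t * (2 * s + B.q * r) = n * b0 := by
    rw [hb0]
    linear_combination he - ha - hc
  have ha' : t ^ 2 = n * a := by linear_combination ha
  have hdq' : B.q ^ 2 + 4 * B.p = (D : ℤ) := by rw [← B.discr_eq, hd]
  have hdisc : b0 ^ 2 - 4 * a * c = (D : ℤ) := by
    have h1 : (n : ℤ) ^ 2 * (b0 ^ 2 - 4 * a * c) = (n : ℤ) ^ 2 * (D : ℤ) := by
      rw [← hdq']
      conv_rhs => rw [← hN]
      linear_combination (-(n * b0) - t * (2 * s + B.q * r)) * hT + 4 * (n : ℤ) * c * ha' +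
        4 * t ^ 2 * hc
    exact mul_left_cancel₀ (pow_ne_zero 2 hnz) h1
  have hra : r * a = t := by
    have h3 : t * (r * a) = t * t := by
      linear_combination a * hN - ha'
    exact mul_left_cancel₀ ht.ne' h3
  have hrb : r * b0 = 2 * s + B.q * r := by
    have h3 : t * (r * b0) = t * (2 * s + B.q * r) := by
      linear_combination b0 * hN - hT
    exact mul_left_cancel₀ ht.ne' h3
  have hapos : 0 < a := by
    have : 0 < r * a := by rw [hra]; exact ht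
    exact (mul_pos_iff_of_pos_left hr).mp this
  -- the additive equivalence
  have hsum : ∀ v : ℤ × ℤ, (v.1 : 𝓞 K) * (t : 𝓞 K) +
      ((ε * v.2 : ℤ) : 𝓞 K) * ((s : 𝓞 K) + (r : 𝓞 K) * B.ω) =
      ((v.1 * t + ε * v.2 * s : ℤ) : 𝓞 K) + ((ε * v.2 * r : ℤ) : 𝓞 K) * B.ω := by
    intro v
    push_cast
    ring
  let f : ℤ × ℤ →+ 𝔟 := AddMonoidHom.mk' (fun v => ⟨(v.1 : 𝓞 K) * (t : 𝓞 K) +
      ((ε * v.2 : ℤ) : 𝓞 K) * ((s : 𝓞 K) + (r : 𝓞 K) * B.ω),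
      𝔟.add_mem (𝔟.mul_mem_left _ mt) (𝔟.mul_mem_left _ ms)⟩) (by
    intro v w
    apply Subtype.ext
    show _ = _ + _
    push_cast [Prod.fst_add, Prod.snd_add]
    ring)
  have hfval : ∀ v, ((f v : 𝔟) : 𝓞 K) = ((v.1 * t + ε * v.2 * s : ℤ) : 𝓞 K) +
      ((ε * v.2 * r : ℤ) : 𝓞 K) * B.ω := fun v => hsum v
  have hε0 : ε ≠ 0 := by
    intro h
    rw [h] at hε
    norm_num at hε
  have hf : Function.Bijective f := by
    constructor
    · rw [injective_iff_map_eq_zero]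
      intro v hv
      have h1 := congrArg (Subtype.val : 𝔟 → 𝓞 K) hv
      have h2 := B.ind _ _ ((hfval v).symm.trans h1)
      have h3 : v.2 = 0 := by
        have := h2.2
        rcases mul_eq_zero.mp this with h | h
        · rcases mul_eq_zero.mp h with h | h
          · exact absurd h hε0
          · exact h
        · exact absurd h hr.ne'
      have h4 : v.1 = 0 := by
        have := h2.1
        rw [h3, mul_zero, zero_mul, add_zero] at this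
        exact (mul_eq_zero.mp this).resolve_right ht.ne'
      exact Prod.ext h4 h3
    · rintro ⟨y, hy⟩
      obtain ⟨u, v, huv⟩ := hgen y hy
      refine ⟨(u, ε * v), Subtype.ext ?_⟩
      show (u : 𝓞 K) * (t : 𝓞 K) + ((ε * (ε * v) : ℤ) : 𝓞 K) * ((s : 𝓞 K) + (r : 𝓞 K) * B.ω) = y
      rw [huv]
      have : ε * (ε * v) = v := by linear_combination v * hε
      rw [this]
  have hraR : (r : ℝ) * a = t := by exact_mod_cast hra
  have hrbR : (r : ℝ) * b0 = 2 * s + B.q * r := by exact_mod_cast hrb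
  have hεR : (ε : ℝ) ^ 2 = 1 := by exact_mod_cast hε
  have hval : ∀ (σ : K →+* ℝ) (v : ℤ × ℤ), σ ((f v : 𝔟) : 𝓞 K) =
      (v.1 : ℝ) * t + ε * v.2 * s + ε * v.2 * r * σ (B.ω : K) := by
    intro σ v
    rw [hfval]
    push_cast
    simp only [map_add, map_mul, map_intCast]
  refine ⟨a, ε * b0, c, AddEquiv.ofBijective f hf, r, hapos, ?_, by exact_mod_cast hr, ?_, ?_⟩
  · rw [← hdisc]
    linear_combination b0 ^ 2 * hε
  · have : (r : ℝ) ^ 2 * a = ((t * r : ℤ) : ℝ) := by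
      push_cast
      rw [← hraR]
      ring
    rw [this, hN]
    simp
  intro v
  rw [AddEquiv.ofBijective_apply]
  refine ⟨?_, ?_, ?_⟩
  · rw [hval]
    unfold e1
    push_cast
    linear_combination (ε * v.2 * r / 2 : ℝ) * h1 - (v.1 : ℝ) * hraR - (ε * v.2 / 2 : ℝ) * hrbR +
      (v.2 * r * Real.sqrt D / 2 : ℝ) * hεR
  · rw [hval]
    unfold e2
    push_cast
    linear_combination (ε * v.2 * r / 2 : ℝ) * h2' - (v.1 : ℝ) * hraR - (ε * v.2 / 2 : ℝ) * hrbR -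
      (v.2 * r * Real.sqrt D / 2 : ℝ) * hεR
  · rw [hfval, B.norm_eq]
    unfold Qf
    linear_combination (v.1 : ℤ) ^ 2 * ha' + ε * v.1 * v.2 * hT + (v.2 : ℤ) ^ 2 * hc +
      (v.2 ^ 2 * (s ^ 2 + B.q * s * r - B.p * r ^ 2)) * hε

end Vale.Agent.P022.H626
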